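import Mathlib

/-!
# P227: tools for the calculus of volumes of polytopes

Compactness and continuity of measures of polyhedra, the derivative of the measure below a moving
level, and differentiability from continuous directional derivatives along the axes.
-/

namespace Vale.Agent.P227.Lp.Calc

open MeasureTheory Set Filter Topology Function

noncomputable section

variable {κ : Type} {E : Type*} [NormedAddCommGroup E] [NormedSpace ℝ E] [FiniteDimensional ℝ E]

/-- A polyhedron without recession directions is compact. -/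
theorem isCompact_poly (S : Finset κ) (l : κ → E →L[ℝ] ℝ) (h : ∀ y, (∀ k ∈ S, l k y ≤ 0) → y = 0)
    (b : κ → ℝ) : IsCompact {x | ∀ k ∈ S, l k x ≤ b k} := by
  have := FiniteDimensional.proper ℝ E
  have hclosed : IsClosed {x | ∀ k ∈ S, l k x ≤ b k} := by
    simp only [ofPred_forall]
    exact isClosed_iInter fun k => isClosed_iInter fun _ =>
      isClosed_le (l k).continuous continuous_const
  refine Metric.isCompact_of_isClosed_isBounded hclosed ?_
  rcases subsingleton_or_nontrivial E with hE | hE
  · exact Set.Subsingleton.finite (fun x _ y _ => Subsingleton.elim x y) |>.isBounded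
  let G : E → ℝ := fun y => ∑ k ∈ S, max (l k y) 0
  have hG : Continuous G := continuous_finsetSum _ fun k _ => (l k).continuous.max continuous_const
  obtain ⟨y₀, hy₀, hmin⟩ := (isCompact_sphere (0 : E) 1).exists_isMinOn
    (NormedSpace.sphere_nonempty.2 zero_le_one) hG.continuousOn
  have hpos : 0 < G y₀ := by
    by_contra hle
    have h0 := (Finset.sum_eq_zero_iff_of_nonneg fun k _ => le_max_right (l k y₀) 0).1
      (le_antisymm (not_lt.1 hle) (Finset.sum_nonneg fun k _ => le_max_right _ _))
    have hz := h y₀ fun k hk => (le_max_left _ _).trans_eq (h0 k hk)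
    rw [mem_sphere_zero_iff_norm, hz, norm_zero] at hy₀
    exact zero_ne_one hy₀
  refine (Metric.isBounded_closedBall (x := (0 : E))
    (r := (∑ k ∈ S, max (b k) 0) / G y₀)).subset fun x hx => ?_
  rw [mem_closedBall_zero_iff, le_div_iff₀ hpos]
  rcases eq_or_ne x 0 with rfl | hx0
  · rw [norm_zero, zero_mul]
    exact Finset.sum_nonneg fun k _ => le_max_right _ _
  · have hu : ‖x‖⁻¹ • x ∈ Metric.sphere (0 : E) 1 := by
      rw [mem_sphere_zero_iff_norm, norm_smul, norm_inv, norm_norm,
        inv_mul_cancel₀ (norm_ne_zero_iff.2 hx0)]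
    refine (mul_le_mul_of_nonneg_left (hmin hu) (norm_nonneg x)).trans ?_
    simp only [G, Finset.mul_sum]
    refine Finset.sum_le_sum fun k hk => ?_
    rw [mul_max_of_nonneg _ _ (norm_nonneg x), mul_zero, map_smul, smul_eq_mul, ← mul_assoc,
      mul_inv_cancel₀ (norm_ne_zero_iff.2 hx0), one_mul]
    exact max_le_max (hx k hk) le_rfl

variable [MeasurableSpace E] [BorelSpace E]

/-- The measure of a polyhedron depends continuously on the offsets when its boundary is null. -/
theorem continuousAt_measure_poly (μ : Measure E) [IsFiniteMeasureOnCompacts μ] (S : Finset κ)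
    (l : κ → E →L[ℝ] ℝ) (h : ∀ y, (∀ k ∈ S, l k y ≤ 0) → y = 0) {Z : Type*} [TopologicalSpace Z]
    [FirstCountableTopology Z] (b : Z → κ → ℝ) {z₀ : Z}
    (hb : ∀ k ∈ S, ContinuousAt (fun z => b z k) z₀)
    (hnull : ∀ k ∈ S, μ {x | l k x = b z₀ k} = 0) :
    ContinuousAt (fun z => (μ {x | ∀ k ∈ S, l k x ≤ b z k}).toReal) z₀ := by
  have hmeas : ∀ c : κ → ℝ, MeasurableSet {x | ∀ k ∈ S, l k x ≤ c k} := fun c =>
    (isCompact_poly S l h c).measurableSet
  refine ((ENNReal.continuousAt_toReal (isCompact_poly S l h _).measure_lt_top.ne).tendsto).comp ?_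
  refine tendsto_measure_of_ae_tendsto_indicator (𝓝 z₀) (hmeas _) (fun z => hmeas _)
    (hmeas fun k => b z₀ k + 1) (isCompact_poly S l h _).measure_lt_top.ne ?_ ?_
  · filter_upwards [(Filter.eventually_all_finset S).2 fun k hk =>
      (hb k hk).eventually_le_const (lt_add_one (b z₀ k))] with z hz x hx k hk
    exact (hx k hk).trans (hz k hk)
  · have hae : ∀ᵐ x ∂μ, ∀ k ∈ S, l k x ≠ b z₀ k :=
      (Filter.eventually_all_finset S).2 fun k hk => by
        rw [ae_iff]; simpa using hnull k hk
    filter_upwards [hae] with x hx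
    by_cases hin : x ∈ {x | ∀ k ∈ S, l k x ≤ b z₀ k}
    · filter_upwards [(Filter.eventually_all_finset S).2 fun k hk =>
        (hb k hk).eventually_const_le ((hin k hk).lt_of_ne (hx k hk))] with z hz
      exact iff_of_true hz hin
    · obtain ⟨k, hk, hlt⟩ : ∃ k ∈ S, b z₀ k < l k x := by
        simpa only [mem_ofPred_eq, not_forall, not_le, exists_prop] using hin
      filter_upwards [(hb k hk).eventually_lt_const hlt] with z hz
      exact iff_of_false (fun hc => absurd (hc k hk) (not_le.2 hz)) hin

/-- The derivative of the measure of the part of a set below a level is the measure of the slice. -/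
theorem slice_deriv {X : Type*} [MeasureSpace X] [SigmaFinite (volume : Measure X)]
    {T : Set (ℝ × X)} (hT : MeasurableSet T)
    (hfin : ∀ u, volume (T ∩ {p | p.1 ≤ u}) ≠ ⊤)
    (hsl : ∀ s, volume (Prod.mk s ⁻¹' T) ≠ ⊤) {u₀ : ℝ}
    (hA : ContinuousAt (fun s => (volume (Prod.mk s ⁻¹' T)).toReal) u₀) :
    HasDerivAt (fun u => (volume (T ∩ {p | p.1 ≤ u})).toReal)
      (volume (Prod.mk u₀ ⁻¹' T)).toReal u₀ := by
  set A : ℝ → ℝ := fun s => (volume (Prod.mk s ⁻¹' T)).toReal
  set f : ℝ → ℝ := fun u => (volume (T ∩ {p | p.1 ≤ u})).toReal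
  have hstrip : ∀ u v : ℝ, u ≤ v → ∀ a c : ℝ, (∀ s ∈ Ioc u v, a ≤ A s ∧ A s ≤ c) →
      a * (v - u) ≤ f v - f u ∧ f v - f u ≤ c * (v - u) := by
    intro u v huv a c hac
    have hD : MeasurableSet (T ∩ Ioc u v ×ˢ univ) :=
      hT.inter (measurableSet_Ioc.prod MeasurableSet.univ)
    have hsplit : T ∩ {p | p.1 ≤ v} = (T ∩ {p | p.1 ≤ u}) ∪ (T ∩ Ioc u v ×ˢ univ) := by
      ext p
      simp only [mem_inter_iff, mem_ofPred_eq, mem_union, mem_prod, mem_Ioc, mem_univ, and_true]
      constructor
      · rintro ⟨h1, h2⟩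
        rcases le_or_gt p.1 u with h | h
        exacts [Or.inl ⟨h1, h⟩, Or.inr ⟨h1, h, h2⟩]
      · rintro (⟨h1, h2⟩ | ⟨h1, _, h2⟩)
        exacts [⟨h1, h2.trans huv⟩, ⟨h1, h2⟩]
    have hdisj : Disjoint (T ∩ {p | p.1 ≤ u}) (T ∩ Ioc u v ×ˢ univ) :=
      disjoint_left.2 fun p hp hp' => absurd hp'.2.1.1 (not_lt.2 hp.2)
    have hDfin : volume (T ∩ Ioc u v ×ˢ univ) ≠ ⊤ :=
      measure_ne_top_of_subset (hsplit ▸ subset_union_right) (hfin v)
    have hsub : f v - f u = (volume (T ∩ Ioc u v ×ˢ univ)).toReal := by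
      simp only [f, hsplit, measure_union hdisj hD, ENNReal.toReal_add (hfin u) hDfin]
      ring
    have hint : volume (T ∩ Ioc u v ×ˢ univ) = ∫⁻ s in Ioc u v, volume (Prod.mk s ⁻¹' T) := by
      rw [Measure.volume_eq_prod, Measure.prod_apply hD, ← lintegral_indicator measurableSet_Ioc]
      refine lintegral_congr fun s => ?_
      by_cases hs : s ∈ Ioc u v
      · rw [indicator_of_mem hs]
        congr 1
        ext x
        simp [mem_Ioc.1 hs]
      · rw [indicator_of_notMem hs]
        refine measure_mono_null (t := ∅) (fun x hx => hs ?_) measure_empty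
        exact hx.2.1
    have hvol : ∀ e : ℝ, (ENNReal.ofReal e * volume (Ioc u v)).toReal = max e 0 * (v - u) := by
      intro e
      rw [Real.volume_Ioc, ENNReal.toReal_mul, ENNReal.toReal_ofReal', ENNReal.toReal_ofReal']
      rw [max_eq_left (sub_nonneg.2 huv)]
    rcases huv.eq_or_lt with rfl | hlt
    · simp
    have hc0 : 0 ≤ c := ENNReal.toReal_nonneg.trans (hac v ⟨hlt, le_rfl⟩).2
    rw [hsub]
    constructor
    · refine (mul_le_mul_of_nonneg_right (le_max_left a 0) (sub_nonneg.2 huv)).trans ?_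
      rw [← hvol, ← setLIntegral_const, hint]
      refine ENNReal.toReal_mono (hint ▸ hDfin) (setLIntegral_mono' measurableSet_Ioc fun s hs => ?_)
      exact (ENNReal.ofReal_le_iff_le_toReal (hsl s)).2 (hac s hs).1
    · rw [← max_eq_left hc0, ← hvol, ← setLIntegral_const, hint]
      refine ENNReal.toReal_mono (by rw [setLIntegral_const, Real.volume_Ioc]; finiteness)
        (setLIntegral_mono' measurableSet_Ioc fun s hs => ?_)
      exact (ENNReal.le_ofReal_iff_toReal_le (hsl s) hc0).2 (hac s hs).2
  rw [hasDerivAt_iff_isLittleO, Asymptotics.isLittleO_iff]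
  intro ε hε
  obtain ⟨δ, hδ, hδ'⟩ := Metric.continuousAt_iff.1 hA ε hε
  filter_upwards [Metric.ball_mem_nhds u₀ hδ] with u hu
  rw [Metric.mem_ball, Real.dist_eq] at hu
  have hb : ∀ s, |s - u₀| ≤ |u - u₀| → A u₀ - ε ≤ A s ∧ A s ≤ A u₀ + ε := fun s hs => by
    have h := hδ' (show dist s u₀ < δ by rw [Real.dist_eq]; linarith)
    rw [Real.dist_eq, abs_lt] at h
    constructor <;> linarith [h.1, h.2]
  change ‖f u - f u₀ - (u - u₀) • A u₀‖ ≤ ε * ‖u - u₀‖
  simp only [Real.norm_eq_abs, smul_eq_mul]
  rcases le_total u₀ u with huv | huv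
  · obtain ⟨h1, h2⟩ := hstrip u₀ u huv (A u₀ - ε) (A u₀ + ε) fun s hs => hb s (by
      rw [abs_of_nonneg (sub_nonneg.2 hs.1.le), abs_of_nonneg (sub_nonneg.2 huv)]; linarith [hs.2])
    rw [abs_of_nonneg (sub_nonneg.2 huv), abs_le]
    constructor <;> linarith
  · obtain ⟨h1, h2⟩ := hstrip u u₀ huv (A u₀ - ε) (A u₀ + ε) fun s hs => hb s (by
      rw [abs_of_nonpos (sub_nonpos.2 hs.2), abs_of_nonpos (sub_nonpos.2 huv)]; linarith [hs.1])
    rw [abs_of_nonpos (sub_nonpos.2 huv), abs_le]
    constructor <;> linarith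

/-- Continuous derivatives along the axes give the derivative. -/
theorem hasFDerivAt_partials [Fintype κ] [DecidableEq κ] {f : (κ → ℝ) → ℝ}
    {g : κ → (κ → ℝ) → ℝ} {z₀ : κ → ℝ}
    (hd : ∀ᶠ z in 𝓝 z₀, ∀ k, HasDerivAt (fun s => f (update z k s)) (g k z) (z k))
    (hg : ∀ k, ContinuousAt (g k) z₀) :
    HasFDerivAt f
      (∑ k, g k z₀ • ContinuousLinearMap.proj (R := ℝ) (φ := fun _ : κ => ℝ) k) z₀ := by
  rw [hasFDerivAt_iff_isLittleO_nhds_zero, Asymptotics.isLittleO_iff]
  intro ε hε
  set ε' := ε / (Fintype.card κ + 1)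
  obtain ⟨r, hr, hball⟩ := Metric.eventually_nhds_iff.1 (hd.and ((eventually_all (ι := κ)).2
    fun k => (hg k).eventually (Metric.ball_mem_nhds _ (show 0 < ε' by positivity))))
  filter_upwards [Metric.ball_mem_nhds 0 hr] with d hd'
  rw [mem_ball_zero_iff] at hd'
  let P : Finset κ → κ → ℝ := fun S k => z₀ k + if k ∈ S then d k else 0
  have key : ∀ S : Finset κ,
      |f (P S) - f z₀ - ∑ k ∈ S, g k z₀ * d k| ≤ S.card * (ε' * ‖d‖) := by
    intro S
    induction S using Finset.induction_on with
    | empty =>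
      have hP : P ∅ = z₀ := funext fun k => by simp [P]
      simp [hP]
    | insert a S ha ih =>
      have hmem : ∀ s ∈ uIcc (z₀ a) (z₀ a + d a), dist (update (P S) a s) z₀ < r := by
        intro s hs
        refine lt_of_le_of_lt ((dist_pi_le_iff (norm_nonneg d)).2 fun k => ?_) hd'
        rw [Real.dist_eq]
        rcases eq_or_ne k a with rfl | hk
        · rw [update_self]
          refine (abs_sub_left_of_mem_uIcc hs).trans (le_trans (le_of_eq ?_) (norm_le_pi_norm d k))
          simp [Real.norm_eq_abs]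
        · simp only [update_of_ne hk, P, add_sub_cancel_left]
          split_ifs
          · exact norm_le_pi_norm d k
          · simp
      have hder : ∀ s ∈ uIcc (z₀ a) (z₀ a + d a),
          HasDerivWithinAt (fun s => f (update (P S) a s) - g a z₀ * s)
            (g a (update (P S) a s) - g a z₀) (uIcc (z₀ a) (z₀ a + d a)) s := by
        intro s hs
        have h := (hball (hmem s hs)).1 a
        simp only [update_idem, update_self] at h
        exact (h.sub ((hasDerivAt_id' s).const_mul (g a z₀))).hasDerivWithinAt.congr_deriv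
          (by ring)
      have hbound : ∀ s ∈ uIcc (z₀ a) (z₀ a + d a),
          ‖g a (update (P S) a s) - g a z₀‖ ≤ ε' := fun s hs => by
        have h : dist (g a (update (P S) a s)) (g a z₀) < ε' := (hball (hmem s hs)).2 a
        rw [dist_eq_norm] at h
        exact h.le
      have h := Convex.norm_image_sub_le_of_norm_hasDerivWithin_le hder hbound (convex_uIcc _ _)
        left_mem_uIcc right_mem_uIcc
      have hPS : update (P S) a (z₀ a) = P S := by
        funext k
        rcases eq_or_ne k a with rfl | hk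
        · simp [P, ha]
        · simp [update_of_ne hk]
      have hPi : update (P S) a (z₀ a + d a) = P (insert a S) := by
        funext k
        rcases eq_or_ne k a with rfl | hk
        · simp [P]
        · simp [P, update_of_ne hk, hk]
      rw [hPS, hPi, Real.norm_eq_abs, Real.norm_eq_abs, add_sub_cancel_left] at h
      rw [Finset.sum_insert ha, Finset.card_insert_of_notMem ha, Nat.cast_add, Nat.cast_one]
      have hda : |d a| ≤ ‖d‖ := norm_le_pi_norm d a
      have h2 : ε' * |d a| ≤ ε' * ‖d‖ := mul_le_mul_of_nonneg_left hda (by positivity)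
      rw [abs_le] at h ih ⊢
      constructor <;> linarith [h.1, h.2, ih.1, ih.2]
  have hP : P Finset.univ = z₀ + d := funext fun k => by simp [P]
  have h := key Finset.univ
  rw [hP, Finset.card_univ] at h
  refine le_trans (le_of_eq ?_) (h.trans ?_)
  · simp [ContinuousLinearMap.sum_apply, Real.norm_eq_abs]
  · rw [← mul_assoc]
    refine mul_le_mul_of_nonneg_right ?_ (norm_nonneg d)
    simp only [ε', ← mul_div_assoc]
    rw [div_le_iff₀ (by positivity)]
    linarith

end

end Vale.Agent.P227.Lp.Calc
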