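import Vale.Agent.P227.Lp.Defs
import Vale.Agent.P227.Lp.Calc.Tools

/-!
# P227: the volume of a polytope cut out by half spaces, first derivatives

The volume is differentiated in one offset by slicing in coordinates adapted to two normals, which
preserve the volume.
-/

namespace Vale.Agent.P227.Lp.Calc

open MeasureTheory Set Filter Topology Matrix Function

noncomputable section

variable {κ : Type} [Fintype κ] [DecidableEq κ]

/-- The polytope cut out by the half spaces `μ k ⬝ x ≤ c k`. -/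
def gbody (μ : κ → V3) (c : κ → ℝ) : Set V3 := {x | ∀ k, μ k ⬝ᵥ x ≤ c k}

/-- Its volume. -/
def gvol (μ : κ → V3) (c : κ → ℝ) : ℝ := (volume (gbody μ c)).toReal

/-- Nonzero normals, bounded polytopes, and parallel normals are opposite. -/
structure GFam (μ : κ → V3) : Prop where
  ne_zero : ∀ k, μ k ≠ 0
  recession : ∀ y, (∀ k, μ k ⬝ᵥ y ≤ 0) → y = 0
  par : ∀ k p, k ≠ p → crossProduct (μ k) (μ p) = 0 → μ k = -μ p

/-- All offsets are positive. -/
def Pos (c : κ → ℝ) : Prop := ∀ k, 0 < c k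

variable (μ : κ → V3)

/-- The common perpendicular of two normals. -/
def w (p q : κ) : V3 := crossProduct (μ p) (μ q)

/-- The vector dual to the first normal. -/
def va (p q : κ) : V3 := (w μ p q ⬝ᵥ w μ p q)⁻¹ • crossProduct (μ q) (w μ p q)

/-- The vector dual to the second normal. -/
def vb (p q : κ) : V3 := (w μ p q ⬝ᵥ w μ p q)⁻¹ • crossProduct (w μ p q) (μ p)

/-- Coordinates adapted to two normals. -/
def crd (p q : κ) (x : V3) : ℝ × ℝ × ℝ :=
  (μ p ⬝ᵥ x, μ q ⬝ᵥ x, (w μ p q ⬝ᵥ w μ p q)⁻¹ * (w μ p q ⬝ᵥ x))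

/-- The slice at height `s` in the first coordinate, the constraint `p` removed. -/
def aset (p q : κ) (c : κ → ℝ) (s : ℝ) : Set (ℝ × ℝ) :=
  {y | ∀ k ∈ Finset.univ.erase p,
    ((μ k ⬝ᵥ vb μ p q) • ContinuousLinearMap.fst ℝ ℝ ℝ
      + (μ k ⬝ᵥ w μ p q) • ContinuousLinearMap.snd ℝ ℝ ℝ) y ≤ c k - (μ k ⬝ᵥ va μ p q) * s}

/-- Its area. -/
def area (p q : κ) (c : κ → ℝ) (s : ℝ) : ℝ := (volume (aset μ p q c s)).toReal

/-- The segment at given first two coordinates, the constraints `p`, `q` removed. -/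
def lset (p q : κ) (c : κ → ℝ) (s t : ℝ) : Set ℝ :=
  {r | ∀ k ∈ (Finset.univ.erase p).erase q,
    ((μ k ⬝ᵥ w μ p q) • ContinuousLinearMap.id ℝ ℝ) r
      ≤ c k - (μ k ⬝ᵥ va μ p q) * s - (μ k ⬝ᵥ vb μ p q) * t}

/-- Its length. -/
def len (p q : κ) (c : κ → ℝ) (s t : ℝ) : ℝ := (volume (lset μ p q c s t)).toReal

/-- Scalar product as a continuous functional. -/
def dotL (v : V3) : V3 →L[ℝ] ℝ := LinearMap.toContinuousLinearMap
  { toFun := fun x => v ⬝ᵥ x
    map_add' := fun x y => dotProduct_add v x y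
    map_smul' := fun r x => by rw [dotProduct_smul, RingHom.id_apply] }

@[simp] theorem dotL_apply (v x : V3) : dotL v x = v ⬝ᵥ x := rfl

omit [Fintype κ] [DecidableEq κ]

theorem ww_ne {p q : κ} (h : w μ p q ≠ 0) : w μ p q ⬝ᵥ w μ p q ≠ 0 :=
  fun h0 => h (dotProduct_self_eq_zero.1 h0)

theorem duals {p q : κ} (h : w μ p q ≠ 0) :
    μ p ⬝ᵥ va μ p q = 1 ∧ μ q ⬝ᵥ va μ p q = 0 ∧ μ p ⬝ᵥ vb μ p q = 0 ∧ μ q ⬝ᵥ vb μ p q = 1 ∧
      μ p ⬝ᵥ w μ p q = 0 ∧ μ q ⬝ᵥ w μ p q = 0 := by
  have h0 := ww_ne μ h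
  refine ⟨?_, ?_, ?_, ?_, dot_self_cross _ _, dot_cross_self _ _⟩
  · rw [va, dotProduct_smul, triple_product_permutation, triple_product_permutation, smul_eq_mul]
    exact inv_mul_cancel₀ h0
  · rw [va, dotProduct_smul, dot_self_cross, smul_zero]
  · rw [vb, dotProduct_smul, dot_cross_self, smul_zero]
  · rw [vb, dotProduct_smul, triple_product_permutation, smul_eq_mul]
    exact inv_mul_cancel₀ h0

theorem expand {p q : κ} (h : w μ p q ≠ 0) (x : V3) :
    x = (crd μ p q x).1 • va μ p q + (crd μ p q x).2.1 • vb μ p q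
      + (crd μ p q x).2.2 • w μ p q := by
  have h0 := ww_ne μ h
  simp only [crd, va, vb, smul_smul]
  generalize hD : w μ p q ⬝ᵥ w μ p q = D at h0
  ext i
  simp only [w, cross_apply, dotProduct, Fin.sum_univ_three, Matrix.cons_val_zero,
    Matrix.cons_val_one, Matrix.cons_val_two, Matrix.head_cons, Matrix.tail_cons] at hD ⊢
  fin_cases i <;>
    (simp [Pi.add_apply, Pi.smul_apply, smul_eq_mul]; field_simp; rw [← hD]; ring)

theorem crd_point {p q : κ} (h : w μ p q ≠ 0) (s t r : ℝ) :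
    crd μ p q (s • va μ p q + t • vb μ p q + r • w μ p q) = (s, t, r) := by
  obtain ⟨h1, h2, h3, h4, h5, h6⟩ := duals μ h
  have h0 := ww_ne μ h
  have h7 : w μ p q ⬝ᵥ va μ p q = 0 := by
    rw [va, dotProduct_smul, dot_cross_self, smul_zero]
  have h8 : w μ p q ⬝ᵥ vb μ p q = 0 := by
    rw [vb, dotProduct_smul, dot_self_cross, smul_zero]
  simp [crd, dotProduct_add, dotProduct_smul, h1, h2, h3, h4, h5, h6, h7, h8]
  field_simp

theorem dot_expand {p q : κ} (h : w μ p q ≠ 0) (k : κ) (x : V3) :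
    μ k ⬝ᵥ x = (μ k ⬝ᵥ va μ p q) * (crd μ p q x).1 + (μ k ⬝ᵥ vb μ p q) * (crd μ p q x).2.1
      + (μ k ⬝ᵥ w μ p q) * (crd μ p q x).2.2 := by
  conv_lhs => rw [expand μ h x]
  simp only [dotProduct_add, dotProduct_smul, smul_eq_mul]
  ring

theorem crd_preserving {p q : κ} (h : w μ p q ≠ 0) :
    MeasurePreserving (crd μ p q) volume volume := by
  have h0 := ww_ne μ h
  let M : Matrix (Fin 3) (Fin 3) ℝ :=
    Matrix.of ![μ p, μ q, (w μ p q ⬝ᵥ w μ p q)⁻¹ • w μ p q]
  have hdet : M.det = 1 := by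
    generalize hD : w μ p q ⬝ᵥ w μ p q = D at h0
    simp only [M, hD, Matrix.det_fin_three]
    simp [w, cross_apply, dotProduct, Fin.sum_univ_three] at hD ⊢
    field_simp
    rw [← hD]
    ring
  have hM : MeasurePreserving (Matrix.toLin' M) volume volume := by
    refine ⟨(Matrix.toLin' M).continuous_of_finiteDimensional.measurable, ?_⟩
    rw [Real.map_matrix_volume_pi_eq_smul_volume_pi (by rw [hdet]; exact one_ne_zero), hdet]
    simp
  have h1 := volume_preserving_piFinSuccAbove (fun _ : Fin 3 => ℝ) 0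
  have h2 := (MeasurePreserving.id (volume : Measure ℝ)).prod (volume_preserving_finTwoArrow ℝ)
  have h3 := (h2.comp h1).comp hM
  refine (congrArg (fun F => MeasurePreserving F volume volume) (funext fun x => ?_)).mp h3
  simp [crd, M, Matrix.toLin'_apply, Matrix.mulVec, dotProduct, Finset.mul_sum, Fin.removeNth,
    Fin.succAbove, mul_assoc]

variable [Fintype κ]

theorem exists_cross (hμ : GFam μ) (p : κ) : ∃ q, w μ p q ≠ 0 := by
  by_contra hno
  push Not at hno
  obtain ⟨j, hj⟩ := Function.ne_iff.1 (hμ.ne_zero p)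
  obtain ⟨i, hi⟩ : ∃ i : Fin 3, i ≠ j := exists_ne j
  let z : V3 := Pi.single i (μ p j) - Pi.single j (μ p i)
  have hz : z ≠ 0 := fun h => hj (by simpa [z, hi] using congrFun h i)
  have hpz : μ p ⬝ᵥ z = 0 := by
    simp only [z, dotProduct_sub, dotProduct_single]
    ring
  refine hz (hμ.recession z fun k => le_of_eq ?_)
  rcases eq_or_ne k p with rfl | hk
  · exact hpz
  · have hc : crossProduct (μ k) (μ p) = 0 := by
      rw [← cross_anticomm]
      have := hno k
      rw [w] at this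
      rw [this, neg_zero]
    rw [hμ.par k p hk hc, neg_dotProduct, hpz, neg_zero]

/-- A second normal for each normal. -/
def other (hμ : GFam μ) (p : κ) : κ := (exists_cross μ hμ p).choose

theorem other_spec (hμ : GFam μ) (p : κ) : w μ p (other μ hμ p) ≠ 0 :=
  (exists_cross μ hμ p).choose_spec

variable {μ}

theorem isCompact_gbody (hμ : GFam μ) (c : κ → ℝ) : IsCompact (gbody μ c) := by
  simpa [gbody] using isCompact_poly Finset.univ (fun k => dotL (μ k))
    (fun y hy => hμ.recession y fun k => hy k (Finset.mem_univ k)) c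

theorem null_plane (hμ : GFam μ) (k : κ) (e : ℝ) : volume {x : V3 | μ k ⬝ᵥ x = e} = 0 := by
  have hw := other_spec μ hμ k
  have hm : MeasurableSet (({e} : Set ℝ) ×ˢ (univ : Set (ℝ × ℝ))) :=
    (measurableSet_singleton e).prod MeasurableSet.univ
  rw [show {x : V3 | μ k ⬝ᵥ x = e} = crd μ k (other μ hμ k) ⁻¹' (({e} : Set ℝ) ×ˢ univ) by
      ext x; simp [crd],
    (crd_preserving μ hw).measure_preimage hm.nullMeasurableSet, Measure.volume_eq_prod,
    Measure.prod_prod, Real.volume_singleton, zero_mul]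

theorem continuous_gvol (hμ : GFam μ) : Continuous (gvol μ) := continuous_iff_continuousAt.2 fun c => by
  have h := continuousAt_measure_poly volume Finset.univ (fun k => dotL (μ k))
    (fun y hy => hμ.recession y fun k => hy k (Finset.mem_univ k)) (fun c : κ → ℝ => c) (z₀ := c)
    (fun k _ => (continuous_apply k).continuousAt) fun k _ => null_plane hμ k _
  unfold gvol gbody
  simpa using h

theorem gvol_translate (c : κ → ℝ) (y : V3) : gvol μ (fun k => c k + μ k ⬝ᵥ y) = gvol μ c := by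
  have e : gbody μ (fun k => c k + μ k ⬝ᵥ y) = (fun x => x + -y) ⁻¹' gbody μ c := by
    ext x
    simp [gbody, dotProduct_add, dotProduct_neg]
  rw [gvol, e, measure_preimage_add_right, gvol]

variable [DecidableEq κ]

theorem aset_recession (hμ : GFam μ) {p q : κ} (h : w μ p q ≠ 0) (y : ℝ × ℝ)
    (hy : ∀ k ∈ Finset.univ.erase p,
      ((μ k ⬝ᵥ vb μ p q) • ContinuousLinearMap.fst ℝ ℝ ℝ
        + (μ k ⬝ᵥ w μ p q) • ContinuousLinearMap.snd ℝ ℝ ℝ) y ≤ 0) : y = 0 := by
  have hc := crd_point μ h 0 y.1 y.2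
  have hz : (0 : ℝ) • va μ p q + y.1 • vb μ p q + y.2 • w μ p q = 0 := by
    refine hμ.recession _ fun k => ?_
    rw [dot_expand μ h k, hc]
    rcases eq_or_ne k p with rfl | hk
    · simp [(duals μ h).2.2.1, (duals μ h).2.2.2.2.1]
    · simpa using hy k (Finset.mem_erase.2 ⟨hk, Finset.mem_univ k⟩)
  rw [hz] at hc
  have h1 := congrArg (fun z => z.2) hc
  simp [crd] at h1
  exact h1.symm.trans rfl

theorem isCompact_aset (hμ : GFam μ) {p q : κ} (h : w μ p q ≠ 0) (c : κ → ℝ) (s : ℝ) :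
    IsCompact (aset μ p q c s) :=
  isCompact_poly _ (fun k => (μ k ⬝ᵥ vb μ p q) • ContinuousLinearMap.fst ℝ ℝ ℝ
    + (μ k ⬝ᵥ w μ p q) • ContinuousLinearMap.snd ℝ ℝ ℝ) (aset_recession hμ h) _

/-- Lines in the plane are null. -/
theorem null_line {β γ : ℝ} (h : β ≠ 0 ∨ γ ≠ 0) (e : ℝ) :
    volume {y : ℝ × ℝ | β * y.1 + γ * y.2 = e} = 0 := by
  have hm : MeasurableSet {y : ℝ × ℝ | β * y.1 + γ * y.2 = e} :=
    (isClosed_eq (by fun_prop) continuous_const).measurableSet
  rw [Measure.volume_eq_prod, Measure.measure_prod_null hm]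
  rcases h with h | h
  · have : ∀ᵐ t : ℝ, β * t ≠ e ∨ γ ≠ 0 := by
      rw [ae_iff]
      refine measure_mono_null (t := {e / β}) (fun t ht => ?_) (Real.volume_singleton)
      simp only [not_or, not_not, mem_ofPred_eq] at ht
      rw [mem_singleton_iff, eq_div_iff h, mul_comm]
      exact ht.1
    filter_upwards [this] with t ht
    rcases eq_or_ne γ 0 with hg | hg
    · have ht' := ht.resolve_right (not_not.2 hg)
      simp [preimage, hg, ht']
    · refine measure_mono_null (t := {(e - β * t) / γ}) (fun r hr => ?_) Real.volume_singleton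
      simp only [mem_preimage, mem_ofPred_eq] at hr
      rw [mem_singleton_iff, eq_div_iff hg]
      linarith
  · refine Eventually.of_forall fun t => ?_
    refine measure_mono_null (t := {(e - β * t) / γ}) (fun r hr => ?_) Real.volume_singleton
    simp only [mem_preimage, mem_ofPred_eq] at hr
    rw [mem_singleton_iff, eq_div_iff h]
    linarith

theorem continuousAt_area (hμ : GFam μ) {p q : κ} (h : w μ p q ≠ 0) {c : κ → ℝ} {s : ℝ}
    (hs : ∀ k, μ k = -μ p → c k + s ≠ 0) :
    ContinuousAt (fun z : (κ → ℝ) × ℝ => area μ p q z.1 z.2) (c, s) := by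
  refine continuousAt_measure_poly volume _ (fun k => (μ k ⬝ᵥ vb μ p q) •
    ContinuousLinearMap.fst ℝ ℝ ℝ + (μ k ⬝ᵥ w μ p q) • ContinuousLinearMap.snd ℝ ℝ ℝ)
    (aset_recession hμ h)
    (fun (z : (κ → ℝ) × ℝ) k => z.1 k - (μ k ⬝ᵥ va μ p q) * z.2) (z₀ := (c, s))
    (fun k _ => by fun_prop) fun k hk => ?_
  simp only [_root_.add_apply, _root_.smul_apply, ContinuousLinearMap.coe_fst',
    ContinuousLinearMap.coe_snd', smul_eq_mul]
  by_cases h2 : μ k ⬝ᵥ vb μ p q = 0 ∧ μ k ⬝ᵥ w μ p q = 0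
  · have hv : μ k = (μ k ⬝ᵥ va μ p q) • μ p := by
      refine dotProduct_eq _ _ fun x => ?_
      rw [dot_expand μ h k x, h2.1, h2.2, smul_dotProduct, smul_eq_mul]
      simp [crd]
    have hne := Finset.ne_of_mem_erase hk
    have hneg : μ k = -μ p := hμ.par k p hne (by
      rw [hv, map_smul, LinearMap.smul_apply, cross_self, smul_zero])
    have : μ k ⬝ᵥ va μ p q = -1 := by rw [hneg, neg_dotProduct, (duals μ h).1]
    refine measure_mono_null (t := ∅) (fun y hy => hs k hneg ?_) measure_empty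
    simp only [mem_ofPred_eq, h2.1, h2.2, this, zero_mul, add_zero] at hy
    linarith
  · exact null_line (not_and_or.1 h2) _

/-- The derivative of the volume in one offset. -/
theorem hasDerivAt_gvol (hμ : GFam μ) {p q : κ} (h : w μ p q ≠ 0) {c : κ → ℝ} {s : ℝ}
    (hs : ∀ k, μ k = -μ p → c k + s ≠ 0) :
    HasDerivAt (fun u => gvol μ (update c p u)) (area μ p q c s) s := by
  let T : Set (ℝ × ℝ × ℝ) := {P | P.2 ∈ aset μ p q c P.1}
  have hT : MeasurableSet T := by
    have hTe : T = ⋂ k ∈ Finset.univ.erase p, {P : ℝ × ℝ × ℝ | (μ k ⬝ᵥ vb μ p q) * P.2.1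
        + (μ k ⬝ᵥ w μ p q) * P.2.2 ≤ c k - (μ k ⬝ᵥ va μ p q) * P.1} := by
      ext P; simp [T, aset]
    rw [hTe]
    exact MeasurableSet.biInter (Finset.countable_toSet _) fun k _ =>
      (isClosed_le (by fun_prop) (by fun_prop)).measurableSet
  have hpre : ∀ u, gbody μ (update c p u) = crd μ p q ⁻¹' (T ∩ {P | P.1 ≤ u}) := by
    intro u
    ext x
    simp only [gbody, mem_ofPred_eq, mem_preimage, mem_inter_iff, T, aset, Finset.mem_erase,
      Finset.mem_univ, and_true, _root_.add_apply, _root_.smul_apply, ContinuousLinearMap.coe_fst',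
      ContinuousLinearMap.coe_snd', smul_eq_mul]
    constructor
    · refine fun hx => ⟨fun k hk => ?_, ?_⟩
      · have := hx k
        rw [update_of_ne hk, dot_expand μ h k x] at this
        linarith
      · have := hx p
        rwa [update_self] at this
    · rintro ⟨hx, hp⟩ k
      rcases eq_or_ne k p with rfl | hk
      · rwa [update_self]
      · rw [update_of_ne hk, dot_expand μ h k x]
        linarith [hx k hk]
  have hm : ∀ u, volume (gbody μ (update c p u)) = volume (T ∩ {P | P.1 ≤ u}) := fun u => by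
    rw [hpre, (crd_preserving μ h).measure_preimage
      (hT.inter (measurableSet_le measurable_fst measurable_const)).nullMeasurableSet]
  have hA : ContinuousAt (fun u => area μ p q c u) s :=
    (continuousAt_area hμ h hs).comp (f := fun u => (c, u)) (by fun_prop)
  have := slice_deriv (X := ℝ × ℝ) hT
    (fun u => hm u ▸ (isCompact_gbody hμ _).measure_lt_top.ne)
    (fun u => (isCompact_aset hμ h c u).measure_lt_top.ne) (u₀ := s) hA
  simp only [gvol, hm, area]
  exact this

theorem area_congr {p q : κ} {c c' : κ → ℝ} (h : ∀ k, k ≠ p → c k = c' k) (s : ℝ) :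
    area μ p q c s = area μ p q c' s := by
  rw [area, area]
  congr 2
  ext y
  simp only [aset, mem_ofPred_eq]
  exact forall_congr' fun k => imp_congr_right fun hk => by rw [h k (Finset.ne_of_mem_erase hk)]

omit [Fintype κ] [DecidableEq κ] in
theorem isOpen_pos [Finite κ] : IsOpen {c : κ → ℝ | Pos c} := by
  simp only [Pos, ofPred_forall]
  exact isOpen_iInter_of_finite fun k => isOpen_lt continuous_const (continuous_apply k)

variable (μ) in
/-- The derivative of the volume in an offset. -/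
def gA (p : κ) (c : κ → ℝ) : ℝ := deriv (fun u => gvol μ (update c p u)) (c p)

theorem gA_eq (hμ : GFam μ) {p q : κ} (h : w μ p q ≠ 0) {c : κ → ℝ} (hc : Pos c) :
    gA μ p c = area μ p q c (c p) :=
  (hasDerivAt_gvol hμ h fun k _ => (add_pos (hc k) (hc p)).ne').deriv

theorem hasDerivAt_gA (hμ : GFam μ) (p : κ) {c : κ → ℝ} (hc : Pos c) :
    HasDerivAt (fun u => gvol μ (update c p u)) (gA μ p c) (c p) := by
  rw [gA_eq hμ (other_spec μ hμ p) hc]
  exact hasDerivAt_gvol hμ (other_spec μ hμ p) fun k _ => (add_pos (hc k) (hc p)).ne'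

theorem continuousAt_gA (hμ : GFam μ) (p : κ) {c : κ → ℝ} (hc : Pos c) :
    ContinuousAt (gA μ p) c := by
  have h : ContinuousAt (fun z : κ → ℝ => area μ p (other μ hμ p) z (z p)) c :=
    (continuousAt_area hμ (other_spec μ hμ p) fun k _ => (add_pos (hc k) (hc p)).ne').comp
      (f := fun z : κ → ℝ => (z, z p)) (by fun_prop)
  exact h.congr (eventuallyEq_of_mem (isOpen_pos.mem_nhds hc)
    fun z hz => (gA_eq hμ (other_spec μ hμ p) hz).symm)

theorem hasFDerivAt_gvol (hμ : GFam μ) {c : κ → ℝ} (hc : Pos c) : HasFDerivAt (gvol μ)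
    (∑ k, gA μ k c • ContinuousLinearMap.proj (R := ℝ) (φ := fun _ : κ => ℝ) k) c :=
  hasFDerivAt_partials (eventually_of_mem (isOpen_pos.mem_nhds hc) fun _ hz k =>
    hasDerivAt_gA hμ k hz) fun k => continuousAt_gA hμ k hc

theorem gA_nonneg (hμ : GFam μ) (p : κ) {c : κ → ℝ} (hc : Pos c) : 0 ≤ gA μ p c := by
  rw [gA_eq hμ (other_spec μ hμ p) hc]
  exact ENNReal.toReal_nonneg

theorem gA_translate (hμ : GFam μ) (p : κ) {c : κ → ℝ} {y : V3} (hc : Pos c)
    (hc' : Pos fun k => c k + μ k ⬝ᵥ y) : gA μ p (fun k => c k + μ k ⬝ᵥ y) = gA μ p c := by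
  have e : (fun u => gvol μ (update (fun k => c k + μ k ⬝ᵥ y) p u))
      = fun u => gvol μ (update c p (u - μ p ⬝ᵥ y)) := by
    funext u
    rw [← gvol_translate (update c p (u - μ p ⬝ᵥ y)) y]
    congr 1
    funext k
    rcases eq_or_ne k p with rfl | hk
    · simp
    · simp [update_of_ne hk]
  have h1 := hasDerivAt_gA hμ p hc'
  rw [e] at h1
  refine h1.unique (?_ : HasDerivAt _ (gA μ p c) _)
  have h2 := hasDerivAt_gA hμ p hc
  exact HasDerivAt.comp_sub_const (c p + μ p ⬝ᵥ y) (μ p ⬝ᵥ y) (by simpa using h2)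

end

end Vale.Agent.P227.Lp.Calc
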