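import Vale.Agent.P227.Lp.Calc.Slice

/-!
# P227: second derivatives of the volume where every facet is present

The derivative of a facet's area in another offset is the length of their common edge; in its own
offset it follows from invariance under translations. All of these are piecewise linear.
-/

namespace Vale.Agent.P227.Lp.Calc

open MeasureTheory Set Filter Topology Matrix Function

noncomputable section

variable {κ : Type} [Fintype κ] [DecidableEq κ] (μ : κ → V3)

/-- All facets are present. -/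
def GFull (c : κ → ℝ) : Prop := Pos c ∧ ∀ k, 0 < gA μ k c

/-- The derivative of the area `p` in another offset. -/
def doff (p k : κ) (c : κ → ℝ) : ℝ :=
  if μ k = -μ p then 0 else len μ p k c (c p) (c k)

/-- The derivative of the area `p` in the offset `k`, with `o` an auxiliary normal. -/
def dfull (p o k : κ) (c : κ → ℝ) : ℝ :=
  if k = p then -∑ j ∈ Finset.univ.erase p, (μ j ⬝ᵥ va μ p o) * doff μ p j c else doff μ p k c

variable {μ}

theorem isOpen_gfull (hμ : GFam μ) : IsOpen {c | GFull μ c} := by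
  refine isOpen_iff_mem_nhds.2 fun c hc => ?_
  filter_upwards [isOpen_pos.mem_nhds hc.1, eventually_all.2 fun k =>
    (continuousAt_gA hμ k hc.1).eventually_const_lt (hc.2 k)] with z h1 h2
  exact ⟨h1, h2⟩

omit [DecidableEq κ] in
theorem cross_ne (hμ : GFam μ) {p k : κ} (hk : k ≠ p) (h : μ k ≠ -μ p) : w μ p k ≠ 0 := fun h0 =>
  h (hμ.par k p hk (by rw [← cross_anticomm, ← w, h0, neg_zero]))

/-- A facet contained in a line is absent. -/
theorem gA_zero (hμ : GFam μ) {p q : κ} (h : w μ p q ≠ 0) {c : κ → ℝ} (hc : Pos c)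
    (hl : ∀ x ∈ gbody μ c, μ p ⬝ᵥ x = c p → μ q ⬝ᵥ x = c q) : gA μ p c = 0 := by
  rw [gA_eq hμ h hc, area]
  refine (congrArg ENNReal.toReal (measure_mono_null (fun y hy => ?_)
    (null_line (Or.inl (one_ne_zero : (1 : ℝ) ≠ 0) : (1 : ℝ) ≠ 0 ∨ (0 : ℝ) ≠ 0) (c q)))).trans
    ENNReal.toReal_zero
  have hcr := crd_point μ h (c p) y.1 y.2
  set x := c p • va μ p q + y.1 • vb μ p q + y.2 • w μ p q
  have hp : μ p ⬝ᵥ x = c p := congrArg Prod.fst hcr
  have hx : x ∈ gbody μ c := fun k => by
    rcases eq_or_ne k p with rfl | hk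
    · exact hp.le
    · rw [dot_expand μ h k, hcr]
      have := hy k (Finset.mem_erase.2 ⟨hk, Finset.mem_univ k⟩)
      simp only [_root_.add_apply, _root_.smul_apply, ContinuousLinearMap.coe_fst',
        ContinuousLinearMap.coe_snd', smul_eq_mul] at this
      linarith
  have hq : μ q ⬝ᵥ x = y.1 := congrArg (fun z => z.2.1) hcr
  simp only [mem_ofPred_eq, one_mul, zero_mul, add_zero]
  rw [← hq, hl x hx hp]

/-- No third plane passes through an edge line with coplanar normal. -/
theorem no_third (hμ : GFam μ) {p q : κ} (h : w μ p q ≠ 0) {c : κ → ℝ} (hc : GFull μ c) {k : κ}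
    (hkp : k ≠ p) (hkq : k ≠ q) (hk : μ k ⬝ᵥ w μ p q = 0) :
    c k - (μ k ⬝ᵥ va μ p q) * c p - (μ k ⬝ᵥ vb μ p q) * c q ≠ 0 := by
  intro he
  set α := μ k ⬝ᵥ va μ p q with hα
  set β := μ k ⬝ᵥ vb μ p q with hβ
  have hv : ∀ x, μ k ⬝ᵥ x = α * (μ p ⬝ᵥ x) + β * (μ q ⬝ᵥ x) := fun x => by
    rw [dot_expand μ h k x, hk]
    simp [crd, α, β]
  have hvec : μ k = α • μ p + β • μ q := dotProduct_eq _ _ fun x => by
    rw [hv, add_dotProduct, smul_dotProduct, smul_dotProduct, smul_eq_mul, smul_eq_mul]
  obtain ⟨d1, d2, d3, d4, -, -⟩ := duals μ h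
  have hβ0 : β ≠ 0 := fun h0 => by
    have hneg := hμ.par k p hkp (by
      rw [hvec, h0, zero_smul, add_zero, map_smul, LinearMap.smul_apply, cross_self, smul_zero])
    have : α = -1 := by rw [hα, hneg, neg_dotProduct, d1]
    rw [this, h0] at he
    linarith [hc.1 k, hc.1 p]
  have hα0 : α ≠ 0 := fun h0 => by
    have hneg := hμ.par k q hkq (by
      rw [hvec, h0, zero_smul, zero_add, map_smul, LinearMap.smul_apply, cross_self, smul_zero])
    have : β = -1 := by rw [hβ, hneg, neg_dotProduct, d4]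
    rw [this, h0] at he
    linarith [hc.1 k, hc.1 q]
  rcases lt_or_gt_of_ne hα0 with ha | ha <;> rcases lt_or_gt_of_ne hβ0 with hb | hb
  · linarith [mul_neg_of_neg_of_pos ha (hc.1 p), mul_neg_of_neg_of_pos hb (hc.1 q), hc.1 k]
  · have hqp : w μ q p ≠ 0 := fun h0 => h (by rw [w, ← cross_anticomm, ← w, h0, neg_zero])
    refine (hc.2 q).ne' (gA_zero hμ hqp hc.1 fun x hx hxq => le_antisymm (hx p) ?_)
    have h1 := hx k
    rw [hv, hxq] at h1
    exact (mul_le_mul_left_of_neg ha).1 (by linarith)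
  · refine (hc.2 p).ne' (gA_zero hμ h hc.1 fun x hx hxp => le_antisymm (hx q) ?_)
    have h1 := hx k
    rw [hv, hxp] at h1
    exact (mul_le_mul_left_of_neg hb).1 (by linarith)
  · have hkp' : w μ k p ≠ 0 := fun h0 => by
      have : β • w μ q p = 0 := by
        rw [← h0, w, w, hvec, map_add, map_smul, map_smul, LinearMap.add_apply,
          LinearMap.smul_apply, LinearMap.smul_apply, cross_self, smul_zero, zero_add]
      have h1 := (smul_eq_zero.1 this).resolve_left hβ0
      exact h (by rw [w, ← cross_anticomm, ← w, h1, neg_zero])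
    refine (hc.2 k).ne' (gA_zero hμ hkp' hc.1 fun x hx hxk => le_antisymm (hx p) ?_)
    rw [hv] at hxk
    exact le_of_mul_le_mul_left (by linarith [mul_le_mul_of_nonneg_left (hx q) hb.le]) ha

theorem lset_recession (hμ : GFam μ) {p q : κ} (h : w μ p q ≠ 0) (r : ℝ)
    (hr : ∀ k ∈ (Finset.univ.erase p).erase q,
      ((μ k ⬝ᵥ w μ p q) • ContinuousLinearMap.id ℝ ℝ) r ≤ 0) : r = 0 := by
  obtain ⟨-, -, -, -, d5, d6⟩ := duals μ h
  have hz : r • w μ p q = 0 := by
    refine hμ.recession _ fun k => ?_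
    rw [dotProduct_smul, smul_eq_mul, mul_comm]
    rcases eq_or_ne k p with rfl | hkp
    · rw [d5, zero_mul]
    rcases eq_or_ne k q with rfl | hkq
    · rw [d6, zero_mul]
    simpa using hr k (Finset.mem_erase.2 ⟨hkq, Finset.mem_erase.2 ⟨hkp, Finset.mem_univ k⟩⟩)
  exact (smul_eq_zero.1 hz).resolve_right h

theorem isCompact_lset (hμ : GFam μ) {p q : κ} (h : w μ p q ≠ 0) (c : κ → ℝ) (s t : ℝ) :
    IsCompact (lset μ p q c s t) :=
  isCompact_poly _ (fun k => (μ k ⬝ᵥ w μ p q) • ContinuousLinearMap.id ℝ ℝ)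
    (lset_recession hμ h) _

theorem continuousAt_len (hμ : GFam μ) {p q : κ} (h : w μ p q ≠ 0) {c : κ → ℝ} (hc : GFull μ c) :
    ContinuousAt (fun z : (κ → ℝ) × ℝ × ℝ => len μ p q z.1 z.2.1 z.2.2) (c, c p, c q) := by
  refine continuousAt_measure_poly volume _
    (fun k => (μ k ⬝ᵥ w μ p q) • ContinuousLinearMap.id ℝ ℝ) (lset_recession hμ h)
    (fun (z : (κ → ℝ) × ℝ × ℝ) k =>
      z.1 k - (μ k ⬝ᵥ va μ p q) * z.2.1 - (μ k ⬝ᵥ vb μ p q) * z.2.2)
    (z₀ := (c, c p, c q)) (fun k _ => by fun_prop) fun k hk => ?_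
  rcases eq_or_ne (μ k ⬝ᵥ w μ p q) 0 with h0 | h0
  · have hne := no_third hμ h hc (Finset.ne_of_mem_erase (Finset.mem_of_mem_erase hk))
      (Finset.ne_of_mem_erase hk) h0
    refine measure_mono_null (t := ∅) (fun r hr => hne ?_) measure_empty
    simp only [mem_ofPred_eq, _root_.smul_apply, ContinuousLinearMap.id_apply, smul_eq_mul,
      h0, zero_mul] at hr
    exact hr.symm
  · refine Set.Subsingleton.measure_zero (fun r hr r' hr' => ?_) _
    simp only [mem_ofPred_eq, _root_.smul_apply, ContinuousLinearMap.id_apply, smul_eq_mul] at hr hr'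
    exact mul_left_cancel₀ h0 (hr.trans hr'.symm)

theorem hasDerivAt_area (hμ : GFam μ) {p q : κ} (h : w μ p q ≠ 0) {c : κ → ℝ} (hc : GFull μ c) :
    HasDerivAt (fun v => area μ p q (update c q v) (c p)) (len μ p q c (c p) (c q)) (c q) := by
  obtain ⟨-, d2, -, d4, -, d6⟩ := duals μ h
  let T : Set (ℝ × ℝ) := {P | P.2 ∈ lset μ p q c (c p) P.1}
  have hT : MeasurableSet T := by
    have hTe : T = ⋂ k ∈ (Finset.univ.erase p).erase q, {P : ℝ × ℝ | (μ k ⬝ᵥ w μ p q) * P.2
        ≤ c k - (μ k ⬝ᵥ va μ p q) * c p - (μ k ⬝ᵥ vb μ p q) * P.1} := by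
      ext P; simp [T, lset]
    rw [hTe]
    exact MeasurableSet.biInter (Finset.countable_toSet _) fun k _ =>
      (isClosed_le (by fun_prop) (by fun_prop)).measurableSet
  have hqp : q ≠ p := fun e => h (by rw [w, e, cross_self])
  have hm : ∀ v, aset μ p q (update c q v) (c p) = T ∩ {P | P.1 ≤ v} := by
    intro v
    ext P
    simp only [aset, T, lset, mem_ofPred_eq, mem_inter_iff, Finset.mem_erase, Finset.mem_univ,
      and_true, _root_.add_apply, _root_.smul_apply, ContinuousLinearMap.coe_fst',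
      ContinuousLinearMap.coe_snd', ContinuousLinearMap.id_apply, smul_eq_mul]
    constructor
    · refine fun hP => ⟨fun k hk => ?_, ?_⟩
      · have := hP k hk.2
        rw [update_of_ne hk.1] at this
        linarith
      · have := hP q hqp
        rw [update_self, d2, d4, d6] at this
        linarith
    · rintro ⟨hP, hv⟩ k hk
      rcases eq_or_ne k q with rfl | hkq
      · rw [update_self, d2, d4, d6]
        linarith
      · rw [update_of_ne hkq]
        linarith [hP k ⟨hkq, hk⟩]
  have hA : ContinuousAt (fun t => len μ p q c (c p) t) (c q) :=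
    (continuousAt_len hμ h hc).comp (f := fun t => (c, c p, t)) (by fun_prop)
  have := slice_deriv (X := ℝ) hT
    (fun v => hm v ▸ (isCompact_aset hμ h _ _).measure_lt_top.ne)
    (fun t => (isCompact_lset hμ h c (c p) t).measure_lt_top.ne) (u₀ := c q) hA
  simp only [area, hm, len]
  exact this

theorem continuousAt_doff (hμ : GFam μ) {p k : κ} (hk : k ≠ p) {c : κ → ℝ} (hc : GFull μ c) :
    ContinuousAt (doff μ p k) c := by
  by_cases h : μ k = -μ p
  · exact continuousAt_const.congr (Eventually.of_forall fun z => (if_pos h).symm)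
  · have h1 : ContinuousAt (fun z : κ → ℝ => len μ p k z (z p) (z k)) c :=
      (continuousAt_len hμ (cross_ne hμ hk h) hc).comp
        (f := fun z : κ → ℝ => (z, z p, z k)) (by fun_prop)
    exact h1.congr (Eventually.of_forall fun z => (if_neg h).symm)

/-- The derivative of an area in another offset. -/
theorem hasDerivAt_gA_off (hμ : GFam μ) {p k : κ} (hk : k ≠ p) {c : κ → ℝ} (hc : GFull μ c) :
    HasDerivAt (fun v => gA μ p (update c k v)) (doff μ p k c) (c k) := by
  have hpos : ∀ᶠ v in 𝓝 (c k), Pos (update c k v) := by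
    filter_upwards [eventually_gt_nhds (hc.1 k)] with v hv j
    rcases eq_or_ne j k with rfl | hj
    · rwa [update_self]
    · rw [update_of_ne hj]; exact hc.1 j
  by_cases h : μ k = -μ p
  · rw [doff, if_pos h]
    have ho := other_spec μ hμ p
    obtain ⟨d1, -, d3, -, d5, -⟩ := duals μ ho
    refine (hasDerivAt_const (c k) (gA μ p c)).congr_of_eventuallyEq ?_
    filter_upwards [hpos] with v hv
    rw [gA_eq hμ ho hv, gA_eq hμ ho hc.1, update_of_ne hk.symm, area, area]
    congr 2
    ext y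
    simp only [aset, mem_ofPred_eq, Finset.mem_erase, Finset.mem_univ, and_true]
    refine forall_congr' fun j => imp_congr_right fun hj => ?_
    rcases eq_or_ne j k with rfl | hjk
    · have hv' := hv j
      rw [update_self] at hv'
      simp only [_root_.add_apply, _root_.smul_apply, h, neg_dotProduct, d1, d3, d5, update_self,
        smul_eq_mul, neg_zero, zero_mul, add_zero]
      have := hc.1 p
      have := hc.1 j
      constructor <;> intro <;> linarith
    · rw [update_of_ne hjk]
  · rw [doff, if_neg h]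
    have hw := cross_ne hμ hk h
    refine (hasDerivAt_area hμ hw hc).congr_of_eventuallyEq ?_
    filter_upwards [hpos] with v hv
    rw [gA_eq hμ hw hv, update_of_ne hk.symm]

theorem continuousAt_dfull (hμ : GFam μ) (p o k : κ) {c : κ → ℝ} (hc : GFull μ c) :
    ContinuousAt (dfull μ p o k) c := by
  rcases eq_or_ne k p with rfl | hk
  · have h1 : ContinuousAt (fun z => -∑ j ∈ Finset.univ.erase k,
        (μ j ⬝ᵥ va μ k o) * doff μ k j z) c :=
      ContinuousAt.neg (tendsto_finsetSum _ fun j hj =>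
        (continuousAt_doff hμ (Finset.ne_of_mem_erase hj) hc).const_mul _)
    exact h1.congr (Eventually.of_forall fun z => (if_pos rfl).symm)
  · exact (continuousAt_doff hμ hk hc).congr
      (Eventually.of_forall fun z => (if_neg hk).symm)

/-- The derivative of an area in its own offset. -/
theorem hasDerivAt_gA_self (hμ : GFam μ) {p o : κ} (ho : w μ p o ≠ 0) {c : κ → ℝ}
    (hc : GFull μ c) :
    HasDerivAt (fun v => gA μ p (update c p v)) (dfull μ p o p c) (c p) := by
  obtain ⟨d1, -, -, -, -, -⟩ := duals μ ho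
  let K : (κ → ℝ) → ℝ := fun z => gA μ p (update z p (c p))
  let g : κ → (κ → ℝ) → ℝ := fun k z => if k = p then 0 else doff μ p k (update z p (c p))
  have hupd : ContinuousAt (fun z : κ → ℝ => update z p (c p)) c := by fun_prop
  have hcc : update c p (c p) = c := update_eq_self p c
  have hK : HasFDerivAt K
      (∑ k, g k c • ContinuousLinearMap.proj (R := ℝ) (φ := fun _ : κ => ℝ) k) c := by
    refine hasFDerivAt_partials ?_ fun k => ?_
    · have hev : ∀ᶠ z in 𝓝 c, GFull μ (update z p (c p)) :=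
        hupd.eventually (show ∀ᶠ z in 𝓝 (update c p (c p)), GFull μ z by
          rw [hcc]; exact (isOpen_gfull hμ).mem_nhds hc)
      filter_upwards [hev] with z hz k
      rcases eq_or_ne k p with rfl | hk
      · simp only [K, g, if_true, update_idem]
        exact hasDerivAt_const _ _
      · simp only [K, g, if_neg hk]
        have := hasDerivAt_gA_off hμ hk hz
        rw [update_of_ne hk] at this
        simpa only [update_comm hk.symm] using this
    · rcases eq_or_ne k p with rfl | hk
      · simp only [g, if_true]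
        exact continuousAt_const
      · have h1 : ContinuousAt (doff μ p k) (update c p (c p)) := by
          rw [hcc]; exact continuousAt_doff hμ hk hc
        exact (h1.comp (f := fun z : κ → ℝ => update z p (c p)) hupd).congr
          (Eventually.of_forall fun z => (if_neg hk).symm)
  let φ : ℝ → κ → ℝ := fun v k => c k - (v - c p) * (μ k ⬝ᵥ va μ p o)
  have hφ : HasDerivAt φ (fun k => -(μ k ⬝ᵥ va μ p o)) (c p) :=
    hasDerivAt_pi.2 fun k => by
      simpa using (((hasDerivAt_id' (c p)).sub_const (c p)).mul_const (μ k ⬝ᵥ va μ p o)).const_sub (c k)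
  have hφ0 : φ (c p) = c := funext fun k => by simp [φ]
  have hcomp := hK.comp_hasDerivAt_of_eq (c p) hφ hφ0.symm
  have hval : (∑ k, g k c • ContinuousLinearMap.proj (R := ℝ) (φ := fun _ : κ => ℝ) k)
      (fun k => -(μ k ⬝ᵥ va μ p o)) = dfull μ p o p c := by
    simp only [ContinuousLinearMap.sum_apply, _root_.smul_apply, ContinuousLinearMap.proj_apply,
      smul_eq_mul, dfull, if_true, g, hcc, ite_mul, zero_mul]
    rw [← Finset.add_sum_erase _ _ (Finset.mem_univ p), if_pos rfl, zero_add,
      ← Finset.sum_neg_distrib]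
    refine Finset.sum_congr rfl fun k hk => ?_
    rw [if_neg (Finset.ne_of_mem_erase hk)]
    ring
  rw [hval] at hcomp
  refine hcomp.congr_of_eventuallyEq ?_
  have hpos : ∀ᶠ v in 𝓝 (c p), Pos (update c p v) ∧ Pos (φ v) := by
    have h1 : Tendsto φ (𝓝 (c p)) (𝓝 c) := by
      have := hφ.continuousAt.tendsto
      rwa [hφ0] at this
    filter_upwards [eventually_gt_nhds (hc.1 p), h1.eventually (isOpen_pos.mem_nhds hc.1)]
      with v hv hv'
    refine ⟨fun j => ?_, hv'⟩
    rcases eq_or_ne j p with rfl | hj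
    · rwa [update_self]
    · rw [update_of_ne hj]; exact hc.1 j
  filter_upwards [hpos] with v hv
  have e : (fun k => update c p v k + μ k ⬝ᵥ (-(v - c p) • va μ p o))
      = update (φ v) p (c p) := by
    funext k
    rcases eq_or_ne k p with rfl | hk
    · simp [d1]
    · simp only [φ, update_of_ne hk, dotProduct_smul, smul_eq_mul]
      ring
  simp only [Function.comp_apply, K]
  rw [← e]
  refine (gA_translate hμ p hv.1 ?_).symm
  rw [e]
  intro j
  rcases eq_or_ne j p with rfl | hj
  · rw [update_self]; exact hc.1 j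
  · rw [update_of_ne hj]; exact hv.2 j

/-- The derivative of an area. -/
theorem hasFDerivAt_gA (hμ : GFam μ) {p o : κ} (ho : w μ p o ≠ 0) {c : κ → ℝ} (hc : GFull μ c) :
    HasFDerivAt (gA μ p)
      (∑ k, dfull μ p o k c • ContinuousLinearMap.proj (R := ℝ) (φ := fun _ : κ => ℝ) k) c := by
  refine hasFDerivAt_partials ?_ fun k => continuousAt_dfull hμ p o k hc
  filter_upwards [(isOpen_gfull hμ).mem_nhds hc] with z hz k
  rcases eq_or_ne k p with rfl | hk
  · exact hasDerivAt_gA_self hμ ho hz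
  · rw [dfull, if_neg hk]
    exact hasDerivAt_gA_off hμ hk hz

/-- The length of an edge is one of finitely many linear forms. -/
theorem exists_forms (hμ : GFam μ) (p q : κ) : ∃ S : Finset (κ → ℝ), ∀ c : κ → ℝ,
    ∃ a ∈ S, doff μ p q c = a ⬝ᵥ c ∨ q = p := by
  rcases eq_or_ne q p with rfl | hqp
  · exact ⟨{0}, fun c => ⟨0, Finset.mem_singleton_self _, Or.inr rfl⟩⟩
  by_cases hneg : μ q = -μ p
  · exact ⟨{0}, fun c => ⟨0, Finset.mem_singleton_self _, Or.inl (by simp [doff, hneg])⟩⟩
  have hw := cross_ne hμ hqp hneg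
  let v : κ → κ → ℝ := fun k => (μ k ⬝ᵥ w μ p q)⁻¹ •
    (Pi.single k 1 - (μ k ⬝ᵥ va μ p q) • Pi.single p 1 - (μ k ⬝ᵥ vb μ p q) • Pi.single q 1)
  refine ⟨insert 0 ((Finset.univ ×ˢ Finset.univ).image fun P : κ × κ => v P.1 - v P.2), fun c => ?_⟩
  simp only [doff, if_neg hneg]
  by_cases hne : (lset μ p q c (c p) (c q)).Nonempty
  swap
  · refine ⟨0, Finset.mem_insert_self _ _, Or.inl ?_⟩
    simp [len, Set.not_nonempty_iff_eq_empty.1 hne]
  obtain ⟨r₀, hr₀⟩ := hne
  set S := (Finset.univ.erase p).erase q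
  have hdot : ∀ k, v k ⬝ᵥ c = (c k - (μ k ⬝ᵥ va μ p q) * c p - (μ k ⬝ᵥ vb μ p q) * c q)
      / (μ k ⬝ᵥ w μ p q) := fun k => by
    simp [v, smul_dotProduct, sub_dotProduct, single_dotProduct, div_eq_inv_mul]
  have hP : (S.filter fun k => 0 < μ k ⬝ᵥ w μ p q).Nonempty := by
    by_contra hemp
    refine one_ne_zero (lset_recession hμ hw 1 fun k hk => ?_)
    by_contra hlt
    exact hemp ⟨k, Finset.mem_filter.2 ⟨hk, by simpa using hlt⟩⟩
  have hN : (S.filter fun k => μ k ⬝ᵥ w μ p q < 0).Nonempty := by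
    by_contra hemp
    refine neg_ne_zero.2 one_ne_zero (lset_recession hμ hw (-1) fun k hk => ?_)
    by_contra hlt
    exact hemp ⟨k, Finset.mem_filter.2 ⟨hk, by simpa using hlt⟩⟩
  obtain ⟨i, hi, hie⟩ := Finset.exists_mem_eq_inf' hP fun k => v k ⬝ᵥ c
  obtain ⟨j, hj, hje⟩ := Finset.exists_mem_eq_sup' hN fun k => v k ⬝ᵥ c
  have hset : lset μ p q c (c p) (c q) = Icc (v j ⬝ᵥ c) (v i ⬝ᵥ c) := by
    ext r
    simp only [lset, mem_ofPred_eq, mem_Icc, ← hie, ← hje, Finset.le_inf'_iff, Finset.sup'_le_iff,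
      _root_.smul_apply, ContinuousLinearMap.id_apply, smul_eq_mul, Finset.mem_filter, and_imp]
    constructor
    · refine fun hr => ⟨fun k hk hn => ?_, fun k hk hp => ?_⟩
      · rw [hdot, div_le_iff_of_neg hn, mul_comm]; exact hr k hk
      · rw [hdot, le_div_iff₀ hp, mul_comm]; exact hr k hk
    · rintro ⟨h1, h2⟩ k hk
      rcases lt_trichotomy (μ k ⬝ᵥ w μ p q) 0 with hs | hs | hs
      · have := h1 k hk hs
        rw [hdot, div_le_iff_of_neg hs] at this
        linarith
      · have := hr₀ k hk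
        simpa [hs] using this
      · have := h2 k hk hs
        rw [hdot, le_div_iff₀ hs] at this
        linarith
  have hle : v j ⬝ᵥ c ≤ v i ⬝ᵥ c := nonempty_Icc.1 (hset ▸ ⟨r₀, hr₀⟩)
  refine ⟨v i - v j, Finset.mem_insert_of_mem (Finset.mem_image.2 ⟨(i, j), by simp, rfl⟩),
    Or.inl ?_⟩
  rw [len, hset, Real.volume_Icc, ENNReal.toReal_ofReal (sub_nonneg.2 hle), sub_dotProduct]

end

end Vale.Agent.P227.Lp.Calc
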